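import Crest.Agent.R19.Fourier

/-!
Counting: most moduli `s ≤ u` are good.
-/

set_option autoImplicit false

namespace Crest.Agent.R19

open Finset

lemma card_primePow_le {n M : ℕ} (hn : 0 < n) (hM : n ≤ 2 ^ M) :
    #{q ∈ n.divisors | IsPrimePow q} ≤ M := by
  have h1 : (#{q ∈ n.divisors | IsPrimePow q} : ℝ) * Real.log 2 ≤ Real.log n := by
    rw [← ArithmeticFunction.vonMangoldt_sum, ← nsmul_eq_mul, ← sum_const]
    refine le_trans (sum_le_sum fun q hq => ?_)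
      (sum_le_sum_of_subset_of_nonneg (filter_subset IsPrimePow _)
        fun _ _ _ => ArithmeticFunction.vonMangoldt_nonneg)
    have hq' := (mem_filter.1 hq).2
    rw [ArithmeticFunction.vonMangoldt_apply, if_pos hq']
    have : 2 ≤ q.minFac := (Nat.minFac_prime hq'.ne_one).two_le
    exact Real.log_le_log (by norm_num) (by exact_mod_cast this)
  have h2 : Real.log n ≤ M * Real.log 2 := by
    rw [← Real.log_pow]
    exact Real.log_le_log (by exact_mod_cast hn) (by exact_mod_cast hM)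
  have h3 : 0 < Real.log 2 := Real.log_pos (by norm_num)
  have : (#{q ∈ n.divisors | IsPrimePow q} : ℝ) ≤ M := le_of_mul_le_mul_right (h1.trans h2) h3
  exact_mod_cast this

lemma card_typ_div {n M : ℕ} (hn : 0 < n) (hM : n ≤ 2 ^ M) (t : ℕ) :
    #{s ∈ n.divisors | s.primeFactors.card ≤ t} ≤ (M + 1) ^ t := by
  induction t with
  | zero =>
    rw [pow_zero, card_le_one_iff_subset_singleton]
    refine ⟨1, fun s hs => ?_⟩
    simp only [mem_filter, Nat.mem_divisors, nonpos_iff_eq_zero, card_eq_zero,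
      Nat.primeFactors_eq_empty] at hs
    rcases hs.2 with h | h
    · exfalso; have := hs.1.1; rw [h] at this; simp at this; omega
    · simp [h]
  | succ t ih =>
    have hsub : {s ∈ n.divisors | s.primeFactors.card ≤ t + 1} ⊆
        image₂ (· * ·) (insert 1 {q ∈ n.divisors | IsPrimePow q})
          {s ∈ n.divisors | s.primeFactors.card ≤ t} := by
      intro s hs
      simp only [mem_filter, Nat.mem_divisors] at hs
      have hs0 : s ≠ 0 := by rintro rfl; have := hs.1.1; simp at this; omega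
      rw [mem_image₂]
      by_cases h1 : s = 1
      · subst h1
        exact ⟨1, by simp, 1, by simp; omega, rfl⟩
      · have hp : s.minFac.Prime := Nat.minFac_prime h1
        have hps : s.minFac ∣ s := Nat.minFac_dvd s
        refine ⟨ordProj[s.minFac] s, ?_, ordCompl[s.minFac] s, ?_, Nat.ordProj_mul_ordCompl_eq_self _ _⟩
        · refine mem_insert_of_mem ?_
          simp only [mem_filter, Nat.mem_divisors]
          refine ⟨⟨(Nat.ordProj_dvd _ _).trans hs.1.1, hs.1.2⟩, ?_⟩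
          exact hp.isPrimePow.pow (hp.factorization_pos_of_dvd hs0 hps).ne'
        · simp only [mem_filter, Nat.mem_divisors]
          refine ⟨⟨(Nat.ordCompl_dvd _ _).trans hs.1.1, hs.1.2⟩, ?_⟩
          rw [← Nat.support_factorization, Nat.factorization_ordCompl, Finsupp.support_erase,
            Nat.support_factorization, card_erase_of_mem (Nat.mem_primeFactors.2 ⟨hp, hps, hs0⟩)]
          omega
    refine (card_le_card hsub).trans ((card_image₂_le _ _ _).trans ?_)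
    rw [pow_succ, mul_comm ((M + 1) ^ t)]
    refine Nat.mul_le_mul ((card_insert_le _ _).trans ?_) ih
    have := card_primePow_le hn hM
    omega

lemma card_modEq_le {x x' M t : ℕ} (hx : x ≤ 2 ^ M) (hx' : x' ≤ 2 ^ M) (hne : x ≠ x')
    (T : Finset ℕ) (hT : ∀ s ∈ T, s.primeFactors.card ≤ t) :
    #{s ∈ T | x ≡ x' [MOD s]} ≤ (M + 1) ^ t := by
  wlog hlt : x < x' generalizing x x'
  · have := this hx' hx hne.symm (by omega)
    simpa only [Nat.ModEq.comm (a := x')] using this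
  refine le_trans (card_le_card fun s hs => ?_) (card_typ_div (n := x' - x) (by omega) (by omega) t)
  simp only [mem_filter, Nat.mem_divisors] at hs ⊢
  exact ⟨⟨(Nat.modEq_iff_dvd' hlt.le).1 hs.2, by omega⟩, hT s hs.1⟩

lemma sum_E_le (X : Finset ℕ) {M t : ℕ} (hX : ∀ x ∈ X, x ≤ 2 ^ M) (T : Finset ℕ)
    (hT : ∀ s ∈ T, s.primeFactors.card ≤ t) (w : ℕ → ℝ) (W : ℝ) (hW : 0 ≤ W)
    (hw : ∀ s ∈ T, w s ≤ W) :
    ∑ s ∈ T, (E X s : ℝ) * w s ≤
      X.card * ∑ s ∈ T, w s + (X.card : ℝ) ^ 2 * (((M + 1) ^ t : ℕ) * W) := by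
  have h1 : ∑ s ∈ T, (E X s : ℝ) * w s =
      ∑ p ∈ X ×ˢ X, ∑ s ∈ T with p.1 ≡ p.2 [MOD s], w s := by
    simp only [E, card_filter, sum_filter]
    rw [sum_comm]
    refine sum_congr rfl fun s _ => ?_
    push_cast
    rw [sum_mul]
    refine sum_congr rfl fun p _ => ?_
    split_ifs <;> simp
  have h2 : ∀ p ∈ X ×ˢ X, ∑ s ∈ T with p.1 ≡ p.2 [MOD s], w s ≤
      (if p.1 = p.2 then ∑ s ∈ T, w s else 0) + ((M + 1) ^ t : ℕ) * W := by
    intro p hp
    rw [mem_product] at hp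
    split_ifs with h
    · rw [filter_true_of_mem fun s _ => by rw [h]]
      have : 0 ≤ (((M + 1) ^ t : ℕ) : ℝ) * W := by positivity
      linarith
    · rw [zero_add]
      refine (sum_le_card_nsmul _ _ W fun s hs => hw s (mem_filter.1 hs).1).trans ?_
      rw [nsmul_eq_mul]
      gcongr
      exact card_modEq_le (hX _ hp.1) (hX _ hp.2) h T hT
  rw [h1]
  refine (sum_le_sum h2).trans (le_of_eq ?_)
  rw [sum_add_distrib, sum_const, card_product, nsmul_eq_mul, sum_product]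
  simp only [sum_ite_eq]
  rw [sum_congr rfl (g := fun _ => ∑ s ∈ T, w s) fun x hx => if_pos hx, sum_const, nsmul_eq_mul]
  push_cast
  ring

lemma card_dvd_le (u d : ℕ) : (#{s ∈ Ioc 0 u | d ∣ s} : ℝ) ≤ u * (1 / (d : ℝ)) := by
  rw [Nat.Ioc_filter_dvd_card_eq_div, mul_one_div]
  exact Nat.cast_div_le

lemma two_pow_card_primeFactors_le {s : ℕ} (hs : s ≠ 0) :
    2 ^ s.primeFactors.card ≤ s.divisors.card := by
  rw [Nat.card_divisors hs]
  refine Finset.pow_card_le_prod _ _ _ fun p hp => ?_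
  have := (Nat.mem_primeFactors.1 hp)
  have := this.1.factorization_pos_of_dvd hs this.2.1
  omega

lemma card_atyp_le (u t : ℕ) :
    (#{s ∈ Ioc 0 u | t < s.primeFactors.card} : ℝ) * 2 ^ (t + 1) ≤
      u * ∑ d ∈ Ioc 0 u, 1 / (d : ℝ) := by
  have h1 : #{s ∈ Ioc 0 u | t < s.primeFactors.card} * 2 ^ (t + 1) ≤
      ∑ s ∈ Ioc 0 u, s.divisors.card := by
    rw [← smul_eq_mul, ← sum_const]
    refine le_trans (sum_le_sum fun s hs => ?_) (sum_le_sum_of_subset (filter_subset _ _))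
    simp only [mem_filter, mem_Ioc] at hs
    exact le_trans (Nat.pow_le_pow_right (by norm_num) hs.2)
      (two_pow_card_primeFactors_le (by omega))
  have h2 : ∑ s ∈ Ioc 0 u, s.divisors.card = ∑ d ∈ Ioc 0 u, u / d := by
    rw [← ArithmeticFunction.sum_Ioc_sigma0_eq_sum_div]
    simp [ArithmeticFunction.sigma_zero_apply]
  rw [h2] at h1
  have h3 : ((#{s ∈ Ioc 0 u | t < s.primeFactors.card} * 2 ^ (t + 1) : ℕ) : ℝ) ≤
      ((∑ d ∈ Ioc 0 u, u / d : ℕ) : ℝ) := by exact_mod_cast h1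
  push_cast at h3
  refine h3.trans ?_
  rw [mul_sum]
  refine sum_le_sum fun d _ => ?_
  rw [mul_one_div]
  exact Nat.cast_div_le

/-- good moduli -/
def Good (X Y : Finset ℕ) (H s : ℕ) : Prop :=
  ∃ x₁ ∈ X, ∃ x₂ ∈ X, ∃ x₃ ∈ X, ∃ x₄ ∈ X, ∃ y ∈ Y, ∃ v < H, s ∣ x₁ + x₂ + y * x₃ + y * x₄ + v

open Classical in
theorem card_bad_le (X Y : Finset ℕ) (hX : X.Nonempty) (hY : Y.Nonempty) (M t u H Q : ℕ)
    (Λ h : ℝ) (hXM : ∀ x ∈ X, x ≤ 2 ^ M) (hYM : ∀ x ∈ Y, x ≤ 2 ^ M) (hu : u ≤ X.card)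
    (hΛ : (((M + 1) ^ t : ℕ) : ℝ) ≤ Λ) (hh : ∑ d ∈ Ioc 0 u, 1 / (d : ℝ) ≤ h)
    (ht : 16 * h ≤ 2 ^ (t + 1)) (hQ : 2 ^ 29 * Λ ^ 5 ≤ Q) (hH : 4 * Q ^ 3 ≤ H)
    (hYc : 2 ^ 29 * Λ ^ 4 * h ≤ Y.card) :
    16 * #{s ∈ Ioc 0 u | ¬ Good X Y H s} ≤ 3 * u := by
  have hΛ1 : 1 ≤ Λ := le_trans (by exact_mod_cast Nat.one_le_pow _ _ (Nat.succ_pos M)) hΛ
  have hΛ0 : 0 < Λ := by linarith
  have hQ0 : (0 : ℝ) < Q := lt_of_lt_of_le (by positivity) hQ
  have hQ0' : 0 < Q := by exact_mod_cast hQ0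
  have hH0 : 0 < H := lt_of_lt_of_le (by positivity) hH
  set x : ℝ := (X.card : ℝ) with hx
  set y : ℝ := (Y.card : ℝ) with hy
  have hx0 : 0 < x := by rw [hx]; exact_mod_cast hX.card_pos
  have hy0 : 0 < y := by rw [hy]; exact_mod_cast hY.card_pos
  have hux : (u : ℝ) ≤ x := by rw [hx]; exact_mod_cast hu
  set π : ℝ := 1 / (2 ^ 12 * Λ ^ 2) with hπ
  have hπ0 : 0 < π := by positivity
  set B1 := {s ∈ Ioc 0 u | t < s.primeFactors.card} with hB1
  set T := {s ∈ Ioc 0 u | s.primeFactors.card ≤ t} with hT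
  set B2 := T.filter (fun s : ℕ => 32 * Λ * x ^ 2 < (s : ℝ) * E X s) with hB2
  set D := {s ∈ T | Q < s ∧ π ^ 2 * y ^ 2 < E Y s} with hD
  set B3 := D.biUnion fun d => {s ∈ Ioc 0 u | d ∣ s} with hB3
  have hsub : {s ∈ Ioc 0 u | ¬ Good X Y H s} ⊆ B1 ∪ B2 ∪ B3 := by
    intro s hs
    rw [mem_filter] at hs
    by_contra hcon
    simp only [mem_union, not_or] at hcon
    obtain ⟨⟨h1, h2⟩, h3⟩ := hcon
    have hs0 : 0 < s := (mem_Ioc.1 hs.1).1
    have hsT : s.primeFactors.card ≤ t := by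
      by_contra hc
      exact h1 (mem_filter.2 ⟨hs.1, by omega⟩)
    have : NeZero s := ⟨hs0.ne'⟩
    refine hs.2 (fourier X Y hX hY H Q hH hH0 (32 * Λ) π hπ0.le ?_ ?_ ?_)
    · by_contra hc
      exact h2 (mem_filter.2 ⟨mem_filter.2 ⟨hs.1, hsT⟩, lt_of_not_ge hc⟩)
    · intro d hd hQd
      by_contra hc
      refine h3 (mem_biUnion.2 ⟨d, mem_filter.2 ⟨mem_filter.2 ⟨mem_Ioc.2 ⟨by omega,
        (Nat.le_of_dvd hs0 hd).trans (mem_Ioc.1 hs.1).2⟩, ?_⟩, hQd, lt_of_not_ge hc⟩,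
        mem_filter.2 ⟨hs.1, hd⟩⟩)
      exact (card_le_card (Nat.primeFactors_mono hd hs0.ne')).trans hsT
    · rw [hπ]
      apply le_of_eq
      field_simp
      norm_num
  have hTt : ∀ s ∈ T, s.primeFactors.card ≤ t := fun s hs => (mem_filter.1 hs).2
  have hu0 : (0 : ℝ) ≤ u := by positivity
  have c1 : 16 * (#B1 : ℝ) ≤ u := by
    have h1 := card_atyp_le u t
    have h2 : (u : ℝ) * ∑ d ∈ Ioc 0 u, 1 / (d : ℝ) ≤ u * h := by gcongr
    have h3 : (0 : ℝ) < 2 ^ (t + 1) := by positivity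
    have h4 : (u : ℝ) * (16 * h) ≤ u * 2 ^ (t + 1) := by gcongr
    refine le_of_mul_le_mul_right ?_ h3
    nlinarith
  have c2 : 16 * (#B2 : ℝ) ≤ u := by
    have h1 : (#B2 : ℝ) * (32 * Λ * x ^ 2) ≤ ∑ s ∈ T, (E X s : ℝ) * u := by
      rw [← nsmul_eq_mul, ← sum_const]
      refine le_trans (sum_le_sum fun s hs => ?_)
        (sum_le_sum_of_subset_of_nonneg (filter_subset _ _) fun _ _ _ => by positivity)
      have h1 := (mem_filter.1 hs).2
      have h2 : (s : ℝ) ≤ u := by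
        exact_mod_cast (mem_Ioc.1 (mem_filter.1 (mem_filter.1 hs).1).1).2
      have : (s : ℝ) * E X s ≤ u * E X s := by gcongr
      linarith
    have h2 := sum_E_le X hXM T hTt (fun _ => (u : ℝ)) u hu0 fun _ _ => le_rfl
    rw [sum_const, nsmul_eq_mul] at h2
    have h3 : (#T : ℝ) ≤ x := by
      refine le_trans ?_ hux
      have : #T ≤ u := (card_filter_le _ _).trans (by simp)
      exact_mod_cast this
    have h4 : x * (#T * (u : ℝ)) ≤ x * (x * u) := by gcongr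
    have h5 : x ^ 2 * ((((M + 1) ^ t : ℕ) : ℝ) * u) ≤ x ^ 2 * (Λ * u) := by gcongr
    have h6 : x * (x * u) ≤ x ^ 2 * (Λ * u) := by
      have : (u : ℝ) ≤ Λ * u := by nlinarith
      calc x * (x * u) = x ^ 2 * u := by ring
        _ ≤ _ := by gcongr
    have h7 : 0 < 2 * Λ * x ^ 2 := by positivity
    refine le_of_mul_le_mul_right ?_ h7
    rw [← hx] at h2
    nlinarith
  have c3 : 16 * (#B3 : ℝ) ≤ u := by
    have h1 : (#B3 : ℝ) ≤ ∑ d ∈ D, (u : ℝ) * (1 / (d : ℝ)) := by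
      have : #B3 ≤ ∑ d ∈ D, #{s ∈ Ioc 0 u | d ∣ s} := card_biUnion_le
      refine le_trans (by exact_mod_cast this) (sum_le_sum fun d _ => card_dvd_le u d)
    have h2 : (∑ d ∈ D, 1 / (d : ℝ)) * (π ^ 2 * y ^ 2) ≤ ∑ d ∈ D, (E Y d : ℝ) * (1 / (d : ℝ)) := by
      rw [sum_mul]
      refine sum_le_sum fun d hd => ?_
      rw [mul_comm]
      have := (mem_filter.1 hd).2.2
      gcongr
    have h3 := sum_E_le Y hYM D (fun s hs => hTt s (mem_filter.1 hs).1) (fun d => 1 / (d : ℝ))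
      (1 / Q) (by positivity) fun d hd => by
        have : (Q : ℝ) ≤ d := by exact_mod_cast (mem_filter.1 hd).2.1.le
        exact one_div_le_one_div_of_le hQ0 this
    have h4 : ∑ d ∈ D, 1 / (d : ℝ) ≤ h := by
      refine le_trans (sum_le_sum_of_subset_of_nonneg ?_ fun _ _ _ => by positivity) hh
      exact (filter_subset _ _).trans (filter_subset _ _)
    rw [← hy] at h3
    rw [← mul_sum] at h1
    set σ := ∑ d ∈ D, 1 / (d : ℝ) with hσ
    have h5 : y * σ ≤ π ^ 2 * y ^ 2 / 32 := by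
      calc y * σ ≤ y * h := by gcongr
        _ = y * (2 ^ 29 * Λ ^ 4 * h) * (π ^ 2 / 32) := by rw [hπ]; field_simp; norm_num
        _ ≤ y * y * (π ^ 2 / 32) := by gcongr
        _ = _ := by ring
    have h6 : y ^ 2 * ((((M + 1) ^ t : ℕ) : ℝ) * (1 / Q)) ≤ π ^ 2 * y ^ 2 / 32 := by
      have : 1 / (Q : ℝ) ≤ 1 / (2 ^ 29 * Λ ^ 5) := one_div_le_one_div_of_le (by positivity) hQ
      calc _ ≤ y ^ 2 * (Λ * (1 / (2 ^ 29 * Λ ^ 5))) := by gcongr
        _ = _ := by rw [hπ]; field_simp; norm_num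
    have h7 : 16 * σ ≤ 1 := by
      have : 0 < π ^ 2 * y ^ 2 := by positivity
      refine le_of_mul_le_mul_right ?_ this
      linarith
    nlinarith
  have := (card_le_card hsub).trans ((card_union_le _ _).trans
    (Nat.add_le_add_right (card_union_le _ _) _))
  have h' : (#{s ∈ Ioc 0 u | ¬ Good X Y H s} : ℝ) ≤ #B1 + #B2 + #B3 := by exact_mod_cast this
  have : 16 * (#{s ∈ Ioc 0 u | ¬ Good X Y H s} : ℝ) ≤ 3 * u := by linarith
  exact_mod_cast this

/-- if few numbers are bad, `u` is a sum of two good numbers -/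
lemma exists_split (p : ℕ → Prop) [DecidablePred p] (u : ℕ) (hu : 2 ≤ u)
    (h : 16 * #{s ∈ Ioc 0 u | ¬ p s} ≤ 3 * u) : ∃ s s', p s ∧ p s' ∧ s + s' = u := by
  by_contra hcon
  push Not at hcon
  have hsub : Ioo 0 u ⊆ {s ∈ Ioc 0 u | ¬ p s} ∪ ({s ∈ Ioc 0 u | ¬ p s}).image fun s => u - s := by
    intro s hs
    rw [mem_Ioo] at hs
    by_cases h1 : p s
    · refine mem_union_right _ (mem_image.2 ⟨u - s, mem_filter.2 ⟨mem_Ioc.2 ⟨by omega, by omega⟩,
        fun h2 => hcon s (u - s) h1 h2 (by omega)⟩, by omega⟩)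
    · exact mem_union_left _ (mem_filter.2 ⟨mem_Ioc.2 ⟨hs.1, hs.2.le⟩, h1⟩)
  have h1 := (card_le_card hsub).trans ((card_union_le _ _).trans
    (Nat.add_le_add_left card_image_le _))
  rw [Nat.card_Ioo] at h1
  omega

end Crest.Agent.R19
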