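import Mathlib

/-!
Unit-fraction representations with repetitions allowed (`UF`), and Takenouchi's observation that
repetitions can be removed without increasing the number of terms.
-/

set_option autoImplicit false

namespace Crest.Agent.R19

/-- the sum of reciprocals of a multiset -/
def rsum (M : Multiset ℕ) : ℚ := (M.map fun n : ℕ => (1 : ℚ) / (n : ℚ)).sum

@[simp] lemma rsum_zero : rsum 0 = 0 := by simp [rsum]

@[simp] lemma rsum_cons (n : ℕ) (M : Multiset ℕ) : rsum (n ::ₘ M) = 1 / (n : ℚ) + rsum M := by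
  simp [rsum]

@[simp] lemma rsum_add (M M' : Multiset ℕ) : rsum (M + M') = rsum M + rsum M' := by
  simp [rsum]

lemma rsum_nonneg (M : Multiset ℕ) : 0 ≤ rsum M := by
  induction M using Multiset.induction_on with
  | empty => simp
  | cons n M ih => rw [rsum_cons]; positivity

/-- `x` is a sum of at most `k` unit fractions (repetitions allowed) -/
def UF (k : ℕ) (x : ℚ) : Prop :=
  ∃ M : Multiset ℕ, M.card ≤ k ∧ (∀ n ∈ M, 0 < n) ∧ rsum M = x

lemma UF.zero (k : ℕ) : UF k 0 := ⟨0, by simp, by simp, by simp⟩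

lemma UF.mono {k k' : ℕ} {x : ℚ} (h : UF k x) (hk : k ≤ k') : UF k' x := by
  obtain ⟨M, h1, h2, h3⟩ := h
  exact ⟨M, h1.trans hk, h2, h3⟩

lemma UF.add {k k' : ℕ} {x y : ℚ} (h : UF k x) (h' : UF k' y) : UF (k + k') (x + y) := by
  obtain ⟨M, h1, h2, h3⟩ := h
  obtain ⟨M', h1', h2', h3'⟩ := h'
  refine ⟨M + M', by simp; omega, ?_, by rw [rsum_add, h3, h3']⟩
  intro n hn
  rcases Multiset.mem_add.1 hn with h | h
  · exact h2 n h
  · exact h2' n h

lemma UF.one {n : ℕ} (hn : 0 < n) : UF 1 (1 / (n : ℚ)) :=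
  ⟨n ::ₘ 0, by simp, by simpa using hn, by simp [rsum]⟩

lemma rsum_le_card_mul (M : Multiset ℕ) (c : ℚ) (h : ∀ n ∈ M, (1 : ℚ) / n ≤ c) :
    rsum M ≤ M.card * c := by
  induction M using Multiset.induction_on with
  | empty => simp
  | cons n M ih =>
    rw [rsum_cons, Multiset.card_cons]
    have h1 := h n (Multiset.mem_cons_self _ _)
    have h2 := ih fun m hm => h m (Multiset.mem_cons_of_mem hm)
    push_cast
    linarith

lemma finite_reps (k : ℕ) : ∀ x : ℚ,
    {M : Multiset ℕ | M.card = k ∧ (∀ n ∈ M, 0 < n) ∧ rsum M = x}.Finite := by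
  induction k with
  | zero =>
    intro x
    refine (Set.finite_singleton (0 : Multiset ℕ)).subset ?_
    rintro M ⟨h, -, -⟩
    simpa using h
  | succ k ih =>
    intro x
    have hfin : (⋃ n ∈ Set.Iic (⌈((k : ℚ) + 1) / x⌉₊),
        (fun M => n ::ₘ M) '' {M : Multiset ℕ | M.card = k ∧ (∀ n ∈ M, 0 < n) ∧
          rsum M = x - 1 / (n : ℚ)}).Finite :=
      (Set.finite_Iic _).biUnion fun n _ => (ih _).image _
    refine hfin.subset ?_
    rintro M ⟨h1, h2, h3⟩
    have hne : M ≠ 0 := by rintro rfl; simp at h1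
    obtain ⟨n, hn, hmin⟩ : ∃ n ∈ M, ∀ m ∈ M, n ≤ m := by
      obtain ⟨n, hn, hmin⟩ := Finset.exists_min_image M.toFinset id
        (Multiset.toFinset_nonempty.2 hne)
      exact ⟨n, Multiset.mem_toFinset.1 hn, fun m hm => hmin m (Multiset.mem_toFinset.2 hm)⟩
    obtain ⟨M', rfl⟩ := Multiset.exists_cons_of_mem hn
    have hn0 : (0 : ℚ) < n := by exact_mod_cast h2 n hn
    have hx : 0 < x := by
      rw [← h3, rsum_cons]
      have := rsum_nonneg M'
      positivity
    have hle : x ≤ ((k : ℚ) + 1) * (1 / n) := by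
      have := rsum_le_card_mul (n ::ₘ M') (1 / n) (fun m hm => by
        have : (n : ℚ) ≤ m := by exact_mod_cast hmin m hm
        exact one_div_le_one_div_of_le hn0 this)
      rw [h3, h1] at this
      push_cast at this
      exact this
    simp only [Set.mem_iUnion, Set.mem_image, Set.mem_ofPred_eq, Set.mem_Iic]
    refine ⟨n, ?_, M', ⟨by simpa using h1, fun m hm => h2 m (Multiset.mem_cons_of_mem hm), ?_⟩, rfl⟩
    · have : (n : ℚ) ≤ ((k : ℚ) + 1) / x := by
        rw [le_div_iff₀ hx]
        rw [mul_one_div, le_div_iff₀ hn0] at hle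
        linarith
      exact_mod_cast this.trans (Nat.le_ceil _)
    · rw [← h3, rsum_cons]; ring

lemma exists_nodup (k : ℕ) : ∀ (x : ℚ), x < 1 → ∀ M : Multiset ℕ, M.card = k → (∀ n ∈ M, 0 < n) →
    rsum M = x → ∃ M' : Multiset ℕ, M'.Nodup ∧ M'.card ≤ k ∧ (∀ n ∈ M', 0 < n) ∧ rsum M' = x := by
  induction k using Nat.strong_induction_on with
  | _ k ih =>
    intro x hx M0 h1 h2 h3
    obtain ⟨M, ⟨hM1, hM2, hM3⟩, hmax⟩ := Set.exists_max_image _ (fun M : Multiset ℕ => M.sum)
      (finite_reps k x) ⟨M0, h1, h2, h3⟩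
    by_cases hnd : M.Nodup
    · exact ⟨M, hnd, hM1.le, hM2, hM3⟩
    obtain ⟨n, hn⟩ : ∃ n, n ::ₘ n ::ₘ 0 ≤ M := by
      rw [Multiset.nodup_iff_le] at hnd
      push Not at hnd
      exact hnd
    obtain ⟨M', rfl⟩ := Multiset.le_iff_exists_add.1 hn
    have hn0 : 0 < n := hM2 n (by simp)
    have hM' : ∀ m ∈ M', 0 < m := fun m hm => hM2 m (by simp [hm])
    have hcard : M'.card + 2 = k := by simp at hM1; omega
    have hsum : 1 / (n : ℚ) + 1 / (n : ℚ) + rsum M' = x := by
      rw [← hM3]; simp [add_assoc]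
    rcases Nat.even_or_odd' n with ⟨m, rfl | rfl⟩
    · have hm : 0 < m := by omega
      obtain ⟨M'', a1, a2, a3, a4⟩ := ih (k - 1) (by omega) x hx (m ::ₘ M') (by simp; omega)
        (by
          intro j hj
          rcases Multiset.mem_cons.1 hj with rfl | hj
          · exact hm
          · exact hM' j hj)
        (by
          rw [rsum_cons, ← hsum]
          have : (0 : ℚ) < m := by exact_mod_cast hm
          push_cast
          field_simp
          ring)
      exact ⟨M'', a1, by omega, a3, a4⟩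
    · exfalso
      have hm : 0 < m := by
        rcases Nat.eq_zero_or_pos m with rfl | h
        · have := rsum_nonneg M'
          simp at hsum
          linarith
        · exact h
      have := hmax ((m + 1) ::ₘ ((2 * m + 1) * (m + 1)) ::ₘ M') ⟨by simp; omega, by
          intro j hj
          rcases Multiset.mem_cons.1 hj with rfl | hj
          · omega
          rcases Multiset.mem_cons.1 hj with rfl | hj
          · positivity
          · exact hM' j hj, by
          rw [rsum_cons, rsum_cons, ← hsum]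
          push_cast
          field_simp
          ring⟩
      simp only [Multiset.sum_cons, Multiset.sum_add, Multiset.sum_zero] at this
      nlinarith

theorem UF.exists_finset {k : ℕ} {x : ℚ} (h : UF k x) (hx : x < 1) :
    ∃ S : Finset ℕ, (∀ n ∈ S, 2 ≤ n) ∧ S.card ≤ k ∧ ∑ n ∈ S, (1 : ℚ) / (n : ℚ) = x := by
  obtain ⟨M, h1, h2, h3⟩ := h
  obtain ⟨M', a1, a2, a3, a4⟩ := exists_nodup M.card x hx M rfl h2 h3
  refine ⟨⟨M', a1⟩, ?_, by simpa using a2.trans h1, by
    rw [Finset.sum_mk]; exact a4⟩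
  intro n hn
  have hn' : n ∈ M' := hn
  have h0 := a3 n hn'
  by_contra hlt
  obtain rfl : n = 1 := by omega
  obtain ⟨M'', rfl⟩ := Multiset.exists_cons_of_mem hn'
  have := rsum_nonneg M''
  simp at a4
  linarith

/-- `z` is a sum of at most `l` divisors of `N` -/
def Rep (N l z : ℕ) : Prop := ∃ M : Multiset ℕ, M.card ≤ l ∧ (∀ d ∈ M, d ∣ N) ∧ M.sum = z

lemma Rep.zero (N l : ℕ) : Rep N l 0 := ⟨0, by simp, by simp, by simp⟩

lemma Rep.mono {N N' l l' z : ℕ} (h : Rep N l z) (hN : N ∣ N') (hl : l ≤ l') : Rep N' l' z := by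
  obtain ⟨M, h1, h2, h3⟩ := h
  exact ⟨M, h1.trans hl, fun d hd => (h2 d hd).trans hN, h3⟩

lemma Rep.add {N l l' z z' : ℕ} (h : Rep N l z) (h' : Rep N l' z') : Rep N (l + l') (z + z') := by
  obtain ⟨M, h1, h2, h3⟩ := h
  obtain ⟨M', h1', h2', h3'⟩ := h'
  refine ⟨M + M', by simp; omega, ?_, by rw [Multiset.sum_add, h3, h3']⟩
  intro n hn
  rcases Multiset.mem_add.1 hn with h | h
  · exact h2 n h
  · exact h2' n h

lemma Rep.one {N d : ℕ} (h : d ∣ N) : Rep N 1 d := ⟨d ::ₘ 0, by simp, by simpa using h, by simp⟩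

lemma Rep.digits (B : ℕ) : ∀ m v : ℕ, v < B ^ m → Rep (B.factorial * B ^ m) m v := by
  intro m
  induction m with
  | zero => intro v hv; obtain rfl : v = 0 := by simpa using hv
            exact Rep.zero _ _
  | succ m ih =>
    intro v hv
    have hB : 0 < B := by
      rcases Nat.eq_zero_or_pos B with rfl | h
      · simp at hv
      · exact h
    have hpos : 0 < B ^ m := by positivity
    have h1 := (ih (v % B ^ m) (Nat.mod_lt _ hpos)).mono (N' := B.factorial * B ^ (m + 1))
      (Nat.mul_dvd_mul_left _ (pow_dvd_pow _ (Nat.le_succ m))) le_rfl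
    have hq : v / B ^ m < B := by
      rw [Nat.div_lt_iff_lt_mul hpos]; rw [pow_succ] at hv; linarith
    have h2 : Rep (B.factorial * B ^ (m + 1)) 1 (B ^ m * (v / B ^ m)) := by
      rcases Nat.eq_zero_or_pos (v / B ^ m) with h | h
      · rw [h]; exact Rep.zero _ _
      · refine Rep.one ?_
        rw [mul_comm (B ^ m)]
        exact Nat.mul_dvd_mul (Nat.dvd_factorial h hq.le) (pow_dvd_pow _ (Nat.le_succ m))
    have := h1.add h2
    rwa [Nat.mod_add_div] at this

lemma Rep.uf {N l z s : ℕ} (h : Rep N l z) (hN : 0 < N) (hz : 0 < z) (hs : s ∣ z) :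
    UF l ((s : ℚ) / N) := by
  obtain ⟨M, h1, h2, h3⟩ := h
  obtain ⟨g, rfl⟩ := hs
  have hg : 0 < g := Nat.pos_of_mul_pos_left hz
  refine ⟨M.map fun d => N / d * g, by simpa using h1, ?_, ?_⟩
  · intro n hn
    obtain ⟨d, hd, rfl⟩ := Multiset.mem_map.1 hn
    have := Nat.div_pos (Nat.le_of_dvd hN (h2 d hd)) (Nat.pos_of_dvd_of_pos (h2 d hd) hN)
    positivity
  · have key : ∀ M : Multiset ℕ, (∀ d ∈ M, d ∣ N) →
        rsum (M.map fun d => N / d * g) = (M.sum : ℚ) / (N * g) := by
      intro M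
      induction M using Multiset.induction_on with
      | empty => simp
      | cons d M ih =>
        intro hM
        rw [Multiset.map_cons, rsum_cons, ih fun e he => hM e (Multiset.mem_cons_of_mem he),
          Multiset.sum_cons]
        obtain ⟨c, rfl⟩ := hM d (Multiset.mem_cons_self _ _)
        have hd : 0 < d := Nat.pos_of_mul_pos_right hN
        have hc : 0 < c := Nat.pos_of_mul_pos_left hN
        rw [Nat.mul_div_cancel_left _ hd]
        have : (0 : ℚ) < d := by exact_mod_cast hd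
        have : (0 : ℚ) < c := by exact_mod_cast hc
        have : (0 : ℚ) < g := by exact_mod_cast hg
        push_cast
        field_simp
    rw [key M h2, h3]
    have : (0 : ℚ) < N := by exact_mod_cast hN
    have : (0 : ℚ) < g := by exact_mod_cast hg
    push_cast
    field_simp

end Crest.Agent.R19
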