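import Mathlib

/-!
The Fourier step modulo `s`.
-/

set_option autoImplicit false

namespace Crest.Agent.R19

open Finset

/-- number of collisions modulo `s` -/
def E (X : Finset ℕ) (s : ℕ) : ℕ := #{p ∈ X ×ˢ X | p.1 ≡ p.2 [MOD s]}

section

variable {s : ℕ} [NeZero s]

local notation "ψ" => (ZMod.stdAddChar : AddChar (ZMod s) ℂ)

/-- exponential sum -/
noncomputable def F (X : Finset ℕ) (c : ZMod s) : ℂ := ∑ x ∈ X, ψ (c * (x : ZMod s))

lemma orth (z : ZMod s) : ∑ a : ZMod s, ψ (a * z) = if z = 0 then (s : ℂ) else 0 := by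
  rw [AddChar.sum_mulShift z (ZMod.isPrimitive_stdAddChar s)]
  split_ifs <;> simp [ZMod.card]

lemma norm_F_le (X : Finset ℕ) (c : ZMod s) : ‖F X c‖ ≤ X.card := by
  unfold F
  refine (norm_sum_le _ _).trans ?_
  simp

lemma F_zero (X : Finset ℕ) : F X (0 : ZMod s) = X.card := by simp [F]

lemma parseval (X : Finset ℕ) : ∑ c : ZMod s, ‖F X c‖ ^ 2 = (s : ℝ) * E X s := by
  have h1 : ∀ c : ZMod s, ((‖F X c‖ ^ 2 : ℝ) : ℂ) =
      ∑ p ∈ X ×ˢ X, ψ (c * ((p.1 : ZMod s) - (p.2 : ZMod s))) := by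
    intro c
    push_cast
    rw [← Complex.mul_conj', F, map_sum, Finset.sum_mul_sum, Finset.sum_product]
    refine Finset.sum_congr rfl fun x _ => Finset.sum_congr rfl fun y _ => ?_
    rw [← AddChar.map_neg_eq_conj, ← AddChar.map_add_eq_mul]
    congr 1
    ring
  have h2 : ((∑ c : ZMod s, ‖F X c‖ ^ 2 : ℝ) : ℂ) = (((s : ℝ) * E X s : ℝ) : ℂ) := by
    rw [Complex.ofReal_sum]
    simp_rw [h1]
    rw [Finset.sum_comm]
    simp_rw [orth]
    rw [← Finset.sum_filter, Finset.sum_const, E]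
    push_cast
    rw [nsmul_eq_mul, mul_comm]
    congr 3
    ext p
    simp only [sub_eq_zero, ZMod.natCast_eq_natCast_iff]
  exact_mod_cast h2

lemma norm_F_range_le (H : ℕ) (a : ZMod s) (ha : a ≠ 0) :
    ‖F (range H) a‖ ≤ addOrderOf a := by
  have hq : 0 < addOrderOf a := addOrderOf_pos a
  have hw : ψ a ≠ 1 := by
    intro h
    apply ha
    apply ZMod.injective_stdAddChar
    rw [h, AddChar.map_zero_eq_one]
  have hpow : ∀ v : ℕ, ψ (a * (v : ZMod s)) = ψ a ^ v := by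
    intro v
    rw [← AddChar.map_nsmul_eq_pow, nsmul_eq_mul, mul_comm]
  have hF : ∀ K : ℕ, F (range K) a = (ψ a ^ K - 1) / (ψ a - 1) := by
    intro K
    unfold F
    simp_rw [hpow]
    exact geom_sum_eq hw K
  have hper : ψ a ^ H = ψ a ^ (H % addOrderOf a) := by
    rw [← AddChar.map_nsmul_eq_pow, ← AddChar.map_nsmul_eq_pow, mod_addOrderOf_nsmul]
  rw [hF, hper, ← hF]
  refine (norm_F_le _ _).trans ?_
  rw [card_range]
  exact_mod_cast (Nat.mod_lt _ hq).le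

lemma card_small_order (Q : ℕ) : #{a : ZMod s | addOrderOf a ≤ Q} ≤ Q ^ 2 := by
  classical
  have hsub : ({a : ZMod s | addOrderOf a ≤ Q} : Finset (ZMod s)) ⊆
      (Icc 1 Q).biUnion fun q => ({a : ZMod s | q • a = 0} : Finset (ZMod s)) := by
    intro a ha
    simp only [mem_filter, mem_univ, true_and, mem_biUnion, mem_Icc] at ha ⊢
    exact ⟨addOrderOf a, ⟨addOrderOf_pos a, ha⟩, addOrderOf_nsmul_eq_zero a⟩
  refine (card_le_card hsub).trans (card_biUnion_le.trans ?_)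
  calc ∑ q ∈ Icc 1 Q, #({a : ZMod s | q • a = 0} : Finset (ZMod s)) ≤ ∑ _q ∈ Icc 1 Q, Q := by
        refine sum_le_sum fun q hq => ?_
        rw [mem_Icc] at hq
        have := IsAddCyclic.card_nsmul_eq_zero_le (α := ZMod s) (n := q) hq.1
        exact le_trans (by convert this) hq.2
    _ = Q ^ 2 := by simp [sq]

omit [NeZero s] in
lemma fiber_sq_le (Y : Finset ℕ) (a c : ZMod s) :
    #(Y.filter fun y : ℕ => a * (y : ZMod s) = c) ^ 2 ≤ E Y (addOrderOf a) := by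
  rw [sq, ← card_product, E]
  refine card_le_card fun p hp => ?_
  simp only [mem_product, mem_filter] at hp ⊢
  refine ⟨⟨hp.1.1, hp.2.1⟩, ?_⟩
  rw [← nsmul_eq_nsmul_iff_modEq, nsmul_eq_mul, nsmul_eq_mul, mul_comm, hp.1.2, mul_comm, hp.2.2]

lemma sum_dilate_le (X Y : Finset ℕ) (a : ZMod s) (π : ℝ) (hπ : 0 ≤ π)
    (h : (E Y (addOrderOf a) : ℝ) ≤ π ^ 2 * (Y.card : ℝ) ^ 2) :
    ∑ y ∈ Y, ‖F X (a * (y : ZMod s))‖ ^ 2 ≤ π * Y.card * ((s : ℝ) * E X s) := by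
  rw [← parseval, Finset.mul_sum]
  rw [← Finset.sum_fiberwise (s := Y) (g := fun y : ℕ => a * (y : ZMod s))]
  refine sum_le_sum fun c _ => ?_
  have h1 : ∑ y ∈ Y.filter (fun y : ℕ => a * (y : ZMod s) = c), ‖F X (a * (y : ZMod s))‖ ^ 2 =
      #(Y.filter fun y : ℕ => a * (y : ZMod s) = c) * ‖F X c‖ ^ 2 := by
    rw [Finset.sum_congr rfl (g := fun _ => ‖F X c‖ ^ 2)]
    · simp
    · intro y hy
      rw [(mem_filter.1 hy).2]
  rw [h1]
  refine mul_le_mul_of_nonneg_right ?_ (by positivity)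
  have h2 : ((#(Y.filter fun y : ℕ => a * (y : ZMod s) = c) : ℝ)) ^ 2 ≤ (π * Y.card) ^ 2 := by
    rw [mul_pow]
    exact le_trans (by exact_mod_cast fiber_sq_le Y a c) h
  exact (pow_le_pow_iff_left₀ (by positivity) (by positivity) two_ne_zero).1 h2

theorem fourier (X Y : Finset ℕ) (hX : X.Nonempty) (hY : Y.Nonempty) (H Q : ℕ)
    (hH : 4 * Q ^ 3 ≤ H) (hH0 : 0 < H) (Λ π : ℝ) (hπ : 0 ≤ π)
    (hA : (s : ℝ) * E X s ≤ Λ * (X.card : ℝ) ^ 2)
    (hB : ∀ s', s' ∣ s → Q < s' → (E Y s' : ℝ) ≤ π ^ 2 * (Y.card : ℝ) ^ 2)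
    (h : Λ ^ 2 * π ≤ 1 / 4) :
    ∃ x₁ ∈ X, ∃ x₂ ∈ X, ∃ x₃ ∈ X, ∃ x₄ ∈ X, ∃ y ∈ Y, ∃ v < H,
      s ∣ x₁ + x₂ + y * x₃ + y * x₄ + v := by
  by_contra hcon
  push Not at hcon
  set T : ZMod s → ℕ → ℂ := fun a y =>
    F X a * (F X a * (F X (a * (y : ZMod s)) * (F X (a * (y : ZMod s)) * F (range H) a))) with hT
  have key : ∀ (a : ZMod s) (y : ℕ), T a y = ∑ x₁ ∈ X, ∑ x₂ ∈ X, ∑ x₃ ∈ X, ∑ x₄ ∈ X,
      ∑ v ∈ range H, ψ (a * ((x₁ + x₂ + y * x₃ + y * x₄ + v : ℕ) : ZMod s)) := by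
    intro a y
    have : ∀ x₁ x₂ x₃ x₄ v : ℕ, ψ (a * ((x₁ + x₂ + y * x₃ + y * x₄ + v : ℕ) : ZMod s)) =
        ψ (a * x₁) * (ψ (a * x₂) * (ψ (a * y * x₃) * (ψ (a * y * x₄) * ψ (a * v)))) := by
      intro x₁ x₂ x₃ x₄ v
      simp only [← AddChar.map_add_eq_mul]
      congr 1
      push_cast
      ring
    simp only [this, ← Finset.mul_sum, ← Finset.sum_mul, hT, F]
  have h0 : ∑ a : ZMod s, ∑ y ∈ Y, T a y = 0 := by
    rw [Finset.sum_comm]
    refine Finset.sum_eq_zero fun y hy => ?_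
    simp only [key]
    rw [Finset.sum_comm]
    refine Finset.sum_eq_zero fun x₁ h₁ => ?_
    rw [Finset.sum_comm]
    refine Finset.sum_eq_zero fun x₂ h₂ => ?_
    rw [Finset.sum_comm]
    refine Finset.sum_eq_zero fun x₃ h₃ => ?_
    rw [Finset.sum_comm]
    refine Finset.sum_eq_zero fun x₄ h₄ => ?_
    rw [Finset.sum_comm]
    refine Finset.sum_eq_zero fun v hv => ?_
    rw [orth, if_neg]
    rw [ZMod.natCast_eq_zero_iff]
    exact hcon x₁ h₁ x₂ h₂ x₃ h₃ x₄ h₄ y hy v (mem_range.1 hv)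
  set x : ℝ := (X.card : ℝ) with hx
  set y : ℝ := (Y.card : ℝ) with hy
  have hx0 : 0 < x := by rw [hx]; exact_mod_cast hX.card_pos
  have hy0 : 0 < y := by rw [hy]; exact_mod_cast hY.card_pos
  have hHr : (0 : ℝ) < H := by exact_mod_cast hH0
  have hmain : ‖∑ y ∈ Y, T 0 y‖ = y * x ^ 4 * H := by
    have : ∑ y ∈ Y, T 0 y = ((y * x ^ 4 * H : ℝ) : ℂ) := by
      simp only [hT, zero_mul, F_zero, sum_const, nsmul_eq_mul, card_range, hx, hy]
      push_cast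
      ring
    rw [this, Complex.norm_real, Real.norm_of_nonneg (by positivity)]
  rw [← Finset.add_sum_erase _ _ (mem_univ (0 : ZMod s))] at h0
  have h1 : y * x ^ 4 * H ≤ ∑ a ∈ univ.erase (0 : ZMod s), ∑ y ∈ Y, ‖T a y‖ := by
    rw [← hmain, eq_neg_of_add_eq_zero_left h0, norm_neg]
    exact (norm_sum_le _ _).trans (sum_le_sum fun a _ => norm_sum_le _ _)
  have hTn : ∀ (a : ZMod s) (y : ℕ), ‖T a y‖ = ‖F X a‖ ^ 2 * ‖F X (a * (y : ZMod s))‖ ^ 2 * ‖F (range H) a‖ := by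
    intro a y
    simp only [hT, norm_mul]
    ring
  have hΛ : 0 ≤ Λ * x ^ 2 := le_trans (by positivity) hA
  have h2 : ∀ a ∈ univ.erase (0 : ZMod s), ∑ y ∈ Y, ‖T a y‖ ≤
      (if addOrderOf a ≤ Q then y * x ^ 4 * Q else 0) +
        ‖F X a‖ ^ 2 * (π * y * (Λ * x ^ 2) * H) := by
    intro a ha
    have ha0 : a ≠ 0 := (mem_erase.1 ha).1
    simp only [hTn]
    split_ifs with hq
    · have : ∑ y ∈ Y, ‖F X a‖ ^ 2 * ‖F X (a * (y : ZMod s))‖ ^ 2 * ‖F (range H) a‖ ≤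
          ∑ _y ∈ Y, x ^ 2 * x ^ 2 * Q := by
        refine sum_le_sum fun y _ => ?_
        have := norm_F_le X a
        have := norm_F_le X (a * (y : ZMod s))
        have := (norm_F_range_le H a ha0).trans (Nat.cast_le.2 hq)
        gcongr
      rw [sum_const, nsmul_eq_mul] at this
      have h3 : 0 ≤ ‖F X a‖ ^ 2 * (π * y * (Λ * x ^ 2) * H) := by positivity
      nlinarith
    · rw [zero_add, ← Finset.sum_mul, ← Finset.mul_sum, mul_assoc]
      refine mul_le_mul_of_nonneg_left ?_ (by positivity)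
      have h3 := sum_dilate_le X Y a π hπ (hB _ (by
        have := addOrderOf_dvd_card (x := a)
        rwa [ZMod.card] at this) (by omega))
      have h4 : ‖F (range H) a‖ ≤ H := by simpa using norm_F_le (range H) a
      have h5 : π * y * ((s : ℝ) * E X s) ≤ π * y * (Λ * x ^ 2) := by gcongr
      exact mul_le_mul (h3.trans h5) h4 (norm_nonneg _) (by positivity)
  have h3 : ∑ a ∈ univ.erase (0 : ZMod s), ∑ y ∈ Y, ‖T a y‖ ≤
      ∑ a : ZMod s, ((if addOrderOf a ≤ Q then y * x ^ 4 * Q else 0) +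
        ‖F X a‖ ^ 2 * (π * y * (Λ * x ^ 2) * H)) := by
    refine (sum_le_sum h2).trans (sum_le_sum_of_subset_of_nonneg (erase_subset _ _) ?_)
    intro a _ _
    positivity
  rw [sum_add_distrib, ← Finset.sum_filter, sum_const, nsmul_eq_mul, ← Finset.sum_mul,
    parseval] at h3
  have h4 : (#{a : ZMod s | addOrderOf a ≤ Q} : ℝ) * (y * x ^ 4 * Q) ≤ y * x ^ 4 * H / 4 := by
    have a1 : (#{a : ZMod s | addOrderOf a ≤ Q} : ℝ) ≤ (Q : ℝ) ^ 2 := by
      exact_mod_cast card_small_order Q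
    have a2 : 4 * (Q : ℝ) ^ 3 ≤ H := by exact_mod_cast hH
    calc _ ≤ (Q : ℝ) ^ 2 * (y * x ^ 4 * Q) := by gcongr
      _ = y * x ^ 4 * (4 * (Q : ℝ) ^ 3) / 4 := by ring
      _ ≤ _ := by gcongr
  have h5 : (s : ℝ) * E X s * (π * y * (Λ * x ^ 2) * H) ≤ y * x ^ 4 * H / 4 := by
    calc _ ≤ Λ * x ^ 2 * (π * y * (Λ * x ^ 2) * H) := by gcongr
      _ = y * x ^ 4 * H * (Λ ^ 2 * π) := by ring
      _ ≤ y * x ^ 4 * H * (1 / 4) := by gcongr
      _ = _ := by ring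
  have h6 : 0 < y * x ^ 4 * H := by positivity
  linarith

end

end Crest.Agent.R19
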