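import Crest.Agent.R19.Distinct

/-!
Greedy steps: the numerator never grows, the denominator picks up free factors.
-/

set_option autoImplicit false

namespace Crest.Agent.R19

open Finset

lemma greedy_step {u N : ℕ} (hu : 0 < u) (hN : 0 < N) :
    ∃ n u' : ℕ, 0 < n ∧ u' < u ∧ n ≤ N ∧ N ≤ u * n ∧
      UF 1 ((u : ℚ) / N - (u' : ℚ) / ((N * n : ℕ) : ℚ)) := by
  set n := (N + u - 1) / u with hn
  have h1 : u * n + (N + u - 1) % u = N + u - 1 := Nat.div_add_mod _ _
  have h2 : (N + u - 1) % u < u := Nat.mod_lt _ hu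
  have h3 : N ≤ u * n := by omega
  have hn0 : 0 < n := by
    rcases Nat.eq_zero_or_pos n with h | h
    · rw [h] at h3; omega
    · exact h
  refine ⟨n, u * n - N, hn0, by omega, ?_, h3, ?_⟩
  · by_contra hc
    have : u * (N + 1) ≤ u * n := Nat.mul_le_mul_left _ (by omega)
    have : N ≤ u * N := Nat.le_mul_of_pos_left _ hu
    have : u * (N + 1) = u * N + u := by ring
    omega
  · convert UF.one hn0 using 1
    have : (0 : ℚ) < N := by exact_mod_cast hN
    have : (0 : ℚ) < n := by exact_mod_cast hn0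
    rw [Nat.cast_sub h3]
    push_cast
    field_simp
    ring

lemma UF.of_sub {k k' : ℕ} {x y : ℚ} (h : UF k (x - y)) (h' : UF k' y) : UF (k + k') x := by
  simpa using h.add h'

lemma UF.sub_trans {k k' : ℕ} {x y z : ℚ} (h : UF k (x - y)) (h' : UF k' (y - z)) :
    UF (k + k') (x - z) := by
  simpa using h.add h'

lemma climb (j : ℕ) {u N : ℕ} (hN : 0 < N) (hu : u * 2 ≤ N) :
    UF j ((u : ℚ) / N) ∨ ∃ u' N' : ℕ, 0 < u' ∧ u' ≤ u ∧ N ∣ N' ∧ 0 < N' ∧ N' ≤ N ^ 2 ^ j ∧
      u' * 2 ^ 2 ^ j ≤ N' ∧ UF j ((u : ℚ) / N - (u' : ℚ) / N') := by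
  induction j with
  | zero =>
    rcases Nat.eq_zero_or_pos u with rfl | h
    · left; simpa using UF.zero 0
    · right
      exact ⟨u, N, h, le_rfl, dvd_rfl, hN, by simp, by simpa using hu, by simpa using UF.zero 0⟩
  | succ j ih =>
    rcases ih with h | ⟨u', N', h1, h2, h3, h4, h5, h6, h7⟩
    · exact Or.inl (h.mono (Nat.le_succ _))
    obtain ⟨n, u'', a1, a2, a3, a4, a5⟩ := greedy_step h1 h4
    rcases Nat.eq_zero_or_pos u'' with rfl | h
    · left
      simpa using h7.sub_trans a5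
    · right
      refine ⟨u'', N' * n, h, by omega, h3.mul_right _, by positivity, ?_, ?_, h7.sub_trans a5⟩
      · rw [pow_succ, pow_mul, sq]
        exact Nat.mul_le_mul h5 (a3.trans h5)
      · have hT : 2 ^ 2 ^ j ≤ n := Nat.le_of_mul_le_mul_left (h6.trans a4) h1
        rw [pow_succ, pow_mul, sq, ← mul_assoc]
        exact Nat.mul_le_mul ((Nat.mul_le_mul_right _ a2.le).trans h6) hT

lemma struct (i : ℕ) {u N P T : ℕ} (hN : 0 < N) (hu0 : 0 < u) (hu : u * T ≤ N) (hT : P + 1 ≤ T)
    (hP : P ^ 2 ∣ N) :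
    UF i ((u : ℚ) / N) ∨ ∃ (u' G : ℕ) (X : Finset ℕ), 0 < u' ∧ u' ≤ u ∧ 0 < G ∧
      N * G ≤ N ^ 2 ^ i ∧ u' * T ≤ N * G ∧ UF i ((u : ℚ) / N - (u' : ℚ) / ((N * G : ℕ) : ℚ)) ∧
      X.card = P.divisors.card ^ i ∧ (∀ x ∈ X, x < G) ∧ (0 < i → ∀ x ∈ X, 0 < x) ∧
      ∀ x ∈ X, ∀ y, y ∣ P → Rep (N * G) i (y * x) := by
  induction i with
  | zero =>
    right
    refine ⟨u, 1, {0}, hu0, le_rfl, one_pos, by simp, by simpa using hu, by simpa using UF.zero 0,
      by simp, by simp, by simp, ?_⟩
    intro x hx y _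
    obtain rfl : x = 0 := by simpa using hx
    exact Rep.zero _ _
  | succ i ih =>
    rcases ih with h | ⟨u', G, X, h1, h2, h3, h4, h5, h6, h7, h8, -, h10⟩
    · exact Or.inl (h.mono (Nat.le_succ _))
    obtain ⟨n, u'', a1, a2, a3, a4, a5⟩ := greedy_step h1 (Nat.mul_pos hN h3)
    rcases Nat.eq_zero_or_pos u'' with rfl | h
    · left
      simpa using h6.sub_trans a5
    · right
      have hTn : T ≤ n := Nat.le_of_mul_le_mul_left (h5.trans a4) h1
      refine ⟨u'', G * n, image₂ (fun x d => x + G * d) X P.divisors, h, by omega, by positivity,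
        ?_, ?_, ?_, ?_, ?_, ?_, ?_⟩
      · rw [pow_succ, pow_mul, sq, ← mul_assoc]
        exact Nat.mul_le_mul h4 (a3.trans h4)
      · rw [← mul_assoc]
        exact ((Nat.mul_le_mul_right _ a2.le).trans h5).trans (Nat.le_mul_of_pos_right _ a1)
      · rw [← mul_assoc]
        exact h6.sub_trans a5
      · rw [card_image₂_iff.2, h7, pow_succ]
        rintro ⟨x, d⟩ hx ⟨x', d'⟩ hx' he
        simp only [Set.mem_prod, mem_coe] at hx hx' he
        have b1 := h8 x hx.1
        have b2 := h8 x' hx'.1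
        have e1 : x = x' := by
          have := congrArg (· % G) he
          simpa [Nat.mod_eq_of_lt b1, Nat.mod_eq_of_lt b2] using this
        subst e1
        have e2 : d = d' := Nat.eq_of_mul_eq_mul_left h3 (by omega)
        rw [e2]
      · intro z hz
        obtain ⟨x, hx, d, hd, rfl⟩ := mem_image₂.1 hz
        have b1 := h8 x hx
        have b2 : d ≤ P := Nat.divisor_le hd
        calc x + G * d < G + G * d := by omega
          _ = G * (d + 1) := by ring
          _ ≤ G * n := Nat.mul_le_mul_left _ (by omega)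
      · intro _ z hz
        obtain ⟨x, hx, d, hd, rfl⟩ := mem_image₂.1 hz
        have := Nat.pos_of_mem_divisors hd
        positivity
      · intro z hz y hy
        obtain ⟨x, hx, d, hd, rfl⟩ := mem_image₂.1 hz
        rw [mul_add]
        refine ((h10 x hx y hy).mono (N' := N * (G * n)) ?_ le_rfl).add (Rep.one ?_)
        · exact Nat.mul_dvd_mul_left _ (dvd_mul_right _ _)
        · have : y * d ∣ N := by
            refine dvd_trans ?_ hP
            rw [sq]
            exact Nat.mul_dvd_mul hy (Nat.dvd_of_mem_divisors hd)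
          calc y * (G * d) = y * d * G := by ring
            _ ∣ N * G := Nat.mul_dvd_mul_right this _
            _ ∣ N * (G * n) := Nat.mul_dvd_mul_left _ (dvd_mul_right _ _)

end Crest.Agent.R19
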