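import Crest.Agent.R19.Greedy
import Crest.Agent.R19.Count

set_option autoImplicit false

namespace Crest.Agent.R19

open Finset

lemma cube_le (l : ℕ) (hl : 20 ≤ l) : 1000 * l ^ 3 ≤ 4 ^ l := by
  induction l, hl using Nat.le_induction with
  | base => norm_num
  | succ l hl ih =>
    have : (l + 1) ^ 3 ≤ 4 * l ^ 3 := by nlinarith [Nat.mul_le_mul hl hl]
    rw [pow_succ 4]
    omega

lemma centralBinom_le_pow (n : ℕ) (hn : 0 < n) :
    n.centralBinom ≤ (2 * n) ^ n.centralBinom.primeFactors.card := by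
  conv_lhs => rw [← Nat.prod_factorization_pow_eq_self n.centralBinom_ne_zero]
  rw [Finsupp.prod, Nat.support_factorization]
  refine Finset.prod_le_pow_card _ _ _ fun p _ => ?_
  rw [Nat.centralBinom_eq_two_mul_choose]
  exact Nat.pow_factorization_choose_le (by omega)

lemma omega_lower (l : ℕ) :
    2 * 4 ^ l ≤ (2 * l + 1) * ((4 ^ l).centralBinom.primeFactors.card + 1) := by
  have hn : 0 < 4 ^ l := by positivity
  have h1 := Nat.four_pow_le_two_mul_self_mul_centralBinom _ hn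
  have h2 := centralBinom_le_pow _ hn
  set w := (4 ^ l).centralBinom.primeFactors.card
  have h3 : 2 * 4 ^ l = 2 ^ (2 * l + 1) := by rw [pow_succ, pow_mul]; ring
  have h4 : 2 ^ (2 * 4 ^ l) ≤ 2 ^ ((2 * l + 1) * (w + 1)) := by
    calc 2 ^ (2 * 4 ^ l) = 4 ^ 4 ^ l := by rw [pow_mul]; norm_num
      _ ≤ 2 * 4 ^ l * (2 * 4 ^ l) ^ w := h1.trans (Nat.mul_le_mul_left _ h2)
      _ = _ := by rw [h3, pow_mul 2 (2 * l + 1) (w + 1), pow_succ' _ w]
  exact (Nat.pow_le_pow_iff_right (by norm_num)).1 h4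

lemma harm_le (u e : ℕ) (hu : u ≤ 2 ^ e) : ∑ d ∈ Ioc 0 u, 1 / (d : ℝ) ≤ 1 + e := by
  have h1 := harmonic_le_one_add_log u
  simp_rw [harmonic_eq_sum_Icc, Rat.cast_sum, Rat.cast_inv, Rat.cast_natCast] at h1
  have h2 : ∑ d ∈ Ioc 0 u, 1 / (d : ℝ) = ∑ d ∈ Icc 1 u, (d : ℝ)⁻¹ := by
    simp only [one_div]
    rfl
  rw [h2]
  refine h1.trans ?_
  have h3 : Real.log u ≤ e := by
    rcases Nat.eq_zero_or_pos u with rfl | h
    · simp
    · have : Real.log u ≤ Real.log (2 ^ e) :=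
        Real.log_le_log (by exact_mod_cast h) (by exact_mod_cast hu)
      rw [Real.log_pow] at this
      have h2 : Real.log 2 ≤ 1 := by have := Real.log_two_lt_d9; linarith
      have : (e : ℝ) * Real.log 2 ≤ e * 1 := by gcongr
      linarith
  linarith

theorem core (l : ℕ) (hl : 20 ≤ l) (a b : ℕ) (ha : 1 ≤ a) (hab : a < b) (hb : b ≤ 2 ^ 4 ^ l) :
    UF (1100 * l) ((a : ℚ) / b) := by
  classical
  have hcube := cube_le l hl
  have hw := omega_lower l
  obtain ⟨n, hn⟩ : ∃ n, n = 4 ^ l := ⟨_, rfl⟩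
  have hn2 : n = 2 ^ (2 * l) := by rw [hn, pow_mul]; norm_num
  rw [← hn] at hcube hw hb
  have hn0 : 0 < n := by rw [hn]; positivity
  set P := n.centralBinom with hP
  set w := P.primeFactors.card with hwdef
  have hP0 : 0 < P := n.centralBinom_pos
  have hPle : P ≤ 2 ^ (2 * n) := by rw [pow_mul]; exact n.centralBinom_le_four_pow
  have hτ : 2 ^ w ≤ P.divisors.card := two_pow_card_primeFactors_le hP0.ne'
  obtain ⟨B, hB⟩ : ∃ B, B = 2 ^ l := ⟨_, rfl⟩
  obtain ⟨m, hm⟩ : ∃ m, m = 451 * l := ⟨_, rfl⟩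
  obtain ⟨D, hD⟩ : ∃ D, D = B.factorial * B ^ m * P ^ 2 := ⟨_, rfl⟩
  have hB0 : 0 < B := by rw [hB]; positivity
  have hD0 : 0 < D := by rw [hD]; positivity
  have hll : l * l ≤ l ^ 3 := by nlinarith
  have hDle : D ≤ 2 ^ (6 * n) := by
    have h1 : B.factorial ≤ 2 ^ n := by
      refine (Nat.factorial_le_pow B).trans ?_
      conv_lhs => rw [hB, ← pow_mul]
      refine Nat.pow_le_pow_right (by norm_num) ?_
      rw [hn2, two_mul, pow_add]
      exact Nat.mul_le_mul_right _ Nat.lt_two_pow_self.le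
    have h2 : B ^ m ≤ 2 ^ n := by
      rw [hB, ← pow_mul]
      refine Nat.pow_le_pow_right (by norm_num) ?_
      rw [hm]; nlinarith
    have h3 : P ^ 2 ≤ (2 ^ (2 * n)) ^ 2 := Nat.pow_le_pow_left hPle 2
    calc D ≤ 2 ^ n * 2 ^ n * (2 ^ (2 * n)) ^ 2 := by
          rw [hD]; exact Nat.mul_le_mul (Nat.mul_le_mul h1 h2) h3
      _ = _ := by rw [← pow_mul, ← pow_add, ← pow_add]; congr 1; ring
  have hN0 : b * D ≤ 2 ^ (7 * n) := by
    calc b * D ≤ 2 ^ n * 2 ^ (6 * n) := Nat.mul_le_mul hb hDle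
      _ = _ := by rw [← pow_add]; congr 1; ring
  have hb0 : 0 < b := by omega
  have hx : (a : ℚ) / b = ((a * D : ℕ) : ℚ) / ((b * D : ℕ) : ℚ) := by
    have : (0 : ℚ) < D := by exact_mod_cast hD0
    have : (0 : ℚ) < b := by exact_mod_cast hb0
    push_cast
    field_simp
  have hlt : a * D < b * D := Nat.mul_lt_mul_of_pos_right hab hD0
  rw [hx]
  obtain ⟨n₁, u₁, a1, a2, a3, a4, a5⟩ := greedy_step (u := a * D) (N := b * D) (by positivity)
    (by positivity)
  have hn₁ : 2 ≤ n₁ := by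
    by_contra hc
    obtain rfl : n₁ = 1 := by omega
    omega
  rcases climb (2 * l + 2) (u := u₁) (N := b * D * n₁) (by positivity)
    (Nat.mul_le_mul (by omega) hn₁) with h | ⟨u₂, N₂, b1, b2, b3, b4, b5, b6, b7⟩
  · exact (a5.of_sub h).mono (by omega)
  have hT : P + 1 ≤ 2 ^ 2 ^ (2 * l + 2) := by
    refine lt_of_le_of_lt hPle (Nat.pow_lt_pow_right (by norm_num) ?_)
    rw [pow_add, ← hn2]
    omega
  have hDN₂ : D ∣ N₂ := ((dvd_mul_left _ _).mul_right _).trans b3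
  rcases struct (8 * l + 4) b4 b1 b6 hT ((hD ▸ dvd_mul_left _ _ : P ^ 2 ∣ D).trans hDN₂) with
    h | ⟨u, G, X, c1, c2, c3, c4, -, c6, c7, c8, c9, c10⟩
  · exact ((a5.sub_trans b7).of_sub h).mono (by omega)
  refine (((a5.sub_trans b7).sub_trans c6).of_sub (k' := 2 * (4 * (8 * l + 4) + m)) ?_).mono
    (by omega)
  have hN₃ : 0 < N₂ * G := by positivity
  rcases Nat.lt_or_ge u 2 with hu | hu
  · obtain rfl : u = 1 := by omega
    exact (by simpa using UF.one hN₃ : UF 1 _).mono (by omega)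
  have hule : u ≤ 2 ^ (7 * n) := by omega
  obtain ⟨M, hM⟩ : ∃ M, M = 7 * n * 2 ^ (10 * l + 7) := ⟨_, rfl⟩
  have hN₃le : N₂ * G ≤ 2 ^ M := by
    calc N₂ * G ≤ N₂ ^ 2 ^ (8 * l + 4) := c4
      _ ≤ ((b * D * n₁) ^ 2 ^ (2 * l + 2)) ^ 2 ^ (8 * l + 4) := Nat.pow_le_pow_left b5 _
      _ ≤ ((2 ^ (7 * n) * 2 ^ (7 * n)) ^ 2 ^ (2 * l + 2)) ^ 2 ^ (8 * l + 4) :=
          Nat.pow_le_pow_left (Nat.pow_le_pow_left (Nat.mul_le_mul hN0 (a3.trans hN0)) _) _
      _ = 2 ^ M := by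
          rw [← pow_add, ← pow_mul, ← pow_mul, hM]
          congr 1
          ring
  obtain ⟨lam, hlam⟩ : ∃ lam, lam = (12 * l + 10) * (2 * l + 6) := ⟨_, rfl⟩
  have hXcard : u ≤ X.card := by
    rw [c7]
    refine hule.trans (le_trans ?_ (Nat.pow_le_pow_left hτ _))
    rw [← pow_mul]
    refine Nat.pow_le_pow_right (by norm_num) ?_
    have : 8 * l + 4 ≤ n := by nlinarith
    nlinarith
  have hbad := card_bad_le X P.divisors (card_pos.1 (by omega)) (Nat.nonempty_divisors.2 hP0.ne')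
    M (2 * l + 6) u (B ^ m) (2 ^ (29 + 5 * lam)) (2 ^ lam) (2 ^ (2 * l + 3))
    (fun x hx => (c8 x hx).le.trans ((Nat.le_mul_of_pos_left _ b4).trans hN₃le))
    (fun y hy => (Nat.divisor_le hy).trans (hPle.trans (Nat.pow_le_pow_right (by norm_num) (by
      rw [hM]
      have : 0 < 2 ^ (10 * l + 7) := by positivity
      nlinarith))))
    hXcard
    (by
      have h1 : M + 1 ≤ 2 ^ (12 * l + 10) := by
        have : 2 ^ (12 * l + 10) = 8 * n * 2 ^ (10 * l + 7) := by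
          rw [hn2]; ring
        rw [this, hM]
        have : 0 < n * 2 ^ (10 * l + 7) := by positivity
        nlinarith
      have h2 : (M + 1) ^ (2 * l + 6) ≤ 2 ^ lam := by
        rw [hlam, pow_mul]; exact Nat.pow_le_pow_left h1 _
      exact_mod_cast h2)
    ((harm_le u _ hule).trans (by
      have : 1 + 7 * n ≤ 2 ^ (2 * l + 3) := by rw [pow_add, ← hn2]; omega
      exact_mod_cast this))
    (le_of_eq (by ring))
    (le_of_eq (by push_cast; ring))
    (by
      rw [hB, ← pow_mul, ← pow_mul, show (4 : ℕ) = 2 ^ 2 by norm_num, ← pow_add]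
      refine Nat.pow_le_pow_right (by norm_num) ?_
      rw [hlam, hm]
      nlinarith)
    (by
      have h1 : 29 + lam * 4 + (2 * l + 3) ≤ w := by
        have h2 : (2 * l + 1) * (29 + lam * 4 + (2 * l + 3) + 1) ≤ (2 * l + 1) * (w + 1) := by
          refine le_trans ?_ hw
          rw [hlam]
          nlinarith
        have := Nat.le_of_mul_le_mul_left h2 (by omega)
        omega
      have h2 : 2 ^ 29 * (2 ^ lam) ^ 4 * 2 ^ (2 * l + 3) ≤ P.divisors.card := by
        rw [← pow_mul, ← pow_add, ← pow_add]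
        exact (Nat.pow_le_pow_right (by norm_num) h1).trans hτ
      exact_mod_cast h2)
  obtain ⟨s, s', hs, hs', rfl⟩ := exists_split _ u hu hbad
  have hgood : ∀ s, Good X P.divisors (B ^ m) s →
      UF (4 * (8 * l + 4) + m) ((s : ℚ) / ((N₂ * G : ℕ) : ℚ)) := by
    rintro s ⟨x₁, h₁, x₂, h₂, x₃, h₃, x₄, h₄, y, hy, v, hv, hdvd⟩
    have hy' := Nat.dvd_of_mem_divisors hy
    have r1 := c10 x₁ h₁ 1 (one_dvd _)
    have r2 := c10 x₂ h₂ 1 (one_dvd _)
    rw [one_mul] at r1 r2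
    have r5 := (Rep.digits B m v hv).mono (N' := N₂ * G)
      (((hD ▸ dvd_mul_right _ _ : B.factorial * B ^ m ∣ D).trans hDN₂).mul_right _) le_rfl
    have r := (((r1.add r2).add (c10 x₃ h₃ y hy')).add (c10 x₄ h₄ y hy')).add r5
    have hpos := c9 (by omega) x₁ h₁
    exact (r.uf hN₃ (by omega) hdvd).mono (by omega)
  have := (hgood s hs).add (hgood s' hs')
  rw [← add_div, ← Nat.cast_add] at this
  exact this.mono (by omega)

end Crest.Agent.R19
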